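import Vale.Agent.P275PV.Perv
import Vale.Agent.P275S.Loc

/-! The perverse truncation given by an idempotent, with the cosupport condition in the form
`Hom (G[-i], B) = 0`. -/

open CategoryTheory TopologicalSpace Opposite Limits Pretriangulated P275S DerivedCategory

noncomputable section

namespace P275PV

section Amp

variable {C : Type*} [Category* C] [Abelian C] [HasDerivedCategory C]

/-- The object `G` placed in degree `m`. -/
abbrev sgl (G : C) (m : ℤ) : DerivedCategory C :=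
  Q.obj ((CochainComplex.singleFunctor C m).obj G)

/-- The homology of an object placed in degree `m`. -/
def sglIso (G : C) (m : ℤ) : (homologyFunctor C m).obj (sgl G m) ≅ G :=
  (homologyFunctorFactors C m).app _ ≪≫ HomologicalComplex.singleObjHomologySelfIso _ m G

theorem isZero_sgl (G : C) {m i : ℤ} (h : i ≠ m) :
    IsZero ((homologyFunctor C i).obj (sgl G m)) :=
  (HomologicalComplex.isZero_single_obj_homology _ m G i h).of_iso
    ((homologyFunctorFactors C i).app _)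

/-- No maps from `G` placed in degree `i` to `B`. -/
def NoMap (B : DerivedCategory C) (i : ℤ) (G : C) : Prop := ∀ φ : sgl G i ⟶ B, φ = 0

theorem NoMap.of_iso {B : DerivedCategory C} {i : ℤ} {G G' : C} (h : NoMap B i G) (e : G ≅ G') :
    NoMap B i G' := fun φ => by
  rw [← cancel_epi (Q.map ((CochainComplex.singleFunctor C i).map e.hom)), comp_zero]
  exact h _

theorem NoMap.of_isZero (B : DerivedCategory C) (i : ℤ) {G : C} (h : IsZero G) : NoMap B i G :=
  fun _ => (Q.map_isZero ((CochainComplex.singleFunctor C i).map_isZero h)).eq_of_src _ _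

open DerivedCategory.TStructure in
theorem zero_of_amp (B : DerivedCategory C) (n : ℕ) (a : ℤ) (A : DerivedCategory C) [A.IsGE a]
    [A.IsLE (a + n - 1)] (h : ∀ i, NoMap B i ((homologyFunctor C i).obj A)) (f : A ⟶ B) :
    f = 0 := by
  induction n generalizing A with
  | zero => exact (t.isZero A (a + (0 : ℕ) - 1) a (by simp)).eq_of_src _ _
  | succ n ih =>
    have hle : A.IsLE (a + n) := t.isLE_of_le A (a + (n + 1 : ℕ) - 1) _ (by push_cast; omega)
    have hT := t.triangleLTGE_distinguished (a + n) A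
    have h1 : (t.truncLTι (a + n)).app A ≫ f = 0 := by
      refine ih ((t.truncLT (a + n)).obj A) (fun i => ?_) _
      by_cases hi : i < a + n
      · have : Mono ((homologyFunctor C i).map ((t.truncLTι (a + n)).app A)) :=
          (HomologySequence.mono_homologyMap_mor₁_iff _ hT (i - 1) i).2
            ((isZero_of_isGE ((t.truncGE (a + n)).obj A) (a + n) (i - 1) (by omega)).eq_of_src _ _)
        have : Epi ((homologyFunctor C i).map ((t.truncLTι (a + n)).app A)) :=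
          (HomologySequence.epi_homologyMap_mor₁_iff _ hT i).2
            ((isZero_of_isGE ((t.truncGE (a + n)).obj A) (a + n) i hi).eq_of_tgt _ _)
        have : IsIso ((homologyFunctor C i).map ((t.truncLTι (a + n)).app A)) :=
          isIso_of_mono_of_epi _
        exact (h i).of_iso (asIso ((homologyFunctor C i).map ((t.truncLTι (a + n)).app A))).symm
      · exact NoMap.of_isZero _ _
          (isZero_of_isLE ((t.truncLT (a + n)).obj A) (a + n - 1) i (by omega))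
    obtain ⟨g, hg⟩ : ∃ g : (t.truncGE (a + n)).obj A ⟶ B, f = (t.truncGEπ (a + n)).app A ≫ g :=
      Triangle.yoneda_exact₂ _ hT f h1
    obtain ⟨Y, ⟨e⟩⟩ : ∃ Y : C, Nonempty ((t.truncGE (a + n)).obj A ≅ sgl Y (a + n)) :=
      exists_iso_singleFunctor_obj_of_isGE_of_isLE ((t.truncGE (a + n)).obj A) (a + n)
    have : Mono ((homologyFunctor C (a + n)).map ((t.truncGEπ (a + n)).app A)) :=
      (HomologySequence.mono_homologyMap_mor₂_iff _ hT (a + n)).2
        ((isZero_of_isLE ((t.truncLT (a + n)).obj A) (a + n - 1) (a + n) (by omega)).eq_of_src _ _)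
    have : Epi ((homologyFunctor C (a + n)).map ((t.truncGEπ (a + n)).app A)) :=
      (HomologySequence.epi_homologyMap_mor₂_iff _ hT (a + n) (a + n + 1)).2
        ((isZero_of_isLE ((t.truncLT (a + n)).obj A) (a + n - 1) (a + n + 1)
          (by omega)).eq_of_tgt _ _)
    have : IsIso ((homologyFunctor C (a + n)).map ((t.truncGEπ (a + n)).app A)) :=
      isIso_of_mono_of_epi _
    have h2 := (h (a + n)).of_iso (asIso ((homologyFunctor C (a + n)).map
      ((t.truncGEπ (a + n)).app A)) ≪≫ (homologyFunctor C (a + n)).mapIso e ≪≫ sglIso Y (a + n))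
    rw [hg, ← e.hom_inv_id_assoc g, h2 (e.inv ≫ g), comp_zero, comp_zero]

/-- Devissage: a bounded object `A` has no maps to `B` if its cohomology objects have none. -/
theorem zero_of_bounded (B A : DerivedCategory C) (a b : ℤ) [A.IsGE a] [A.IsLE b]
    (h : ∀ i, NoMap B i ((homologyFunctor C i).obj A)) (f : A ⟶ B) : f = 0 := by
  have : A.IsLE (a + ((b - a + 1).toNat : ℕ) - 1) :=
    DerivedCategory.TStructure.t.isLE_of_le A b _ (by omega)
  exact zero_of_amp B (b - a + 1).toNat a A h f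

end Amp

variable {k : Type} [Field k] {X : TopCat.{0}}

/-- The support condition for bounded below objects. -/
def BLE (𝒵 : ℤ → Set X → Prop) (c : ℤ) (A : Der k X) : Prop := (∃ b, A.IsGE b) ∧ LE 𝒵 c A

/-- The cosupport condition: `Hom (G[-i], B) = 0` for `G` supported in a set of dimension at most
`c - i`. -/
def SGT (𝒵 : ℤ → Set X → Prop) (c : ℤ) (B : Der k X) : Prop :=
  ∀ (i : ℤ) (Z : Set X), 𝒵 (c - i) Z → ∀ G : Sh k X, (∀ y ∉ Z, IsZero ((Stk k y).obj G)) →
    ∀ φ : sgl G i ⟶ B, φ = 0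

variable {𝒵 : ℤ → Set X → Prop} {c : ℤ}

theorem Orth.sgt (hemp : ∀ d, 𝒵 d ∅) {B : Der k X} (h : Orth 𝒵 c B) : SGT 𝒵 c B := by
  intro i Z hZ G hG φ
  refine h _ (fun j => ?_) φ
  by_cases hj : j = i
  · subst hj
    exact ⟨Z, hZ, fun x hx => (hG x hx).of_iso ((Stk k x).mapIso (sglIso G j))⟩
  · exact ⟨∅, hemp _, fun x _ => (Stk k x).map_isZero (isZero_sgl G hj)⟩

theorem LE.isLE (hneg : ∀ d Z, d < 0 → 𝒵 d Z → Z = ∅) {A : Der k X} (h : LE 𝒵 c A) :
    A.IsLE c := by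
  rw [DerivedCategory.isLE_iff]
  intro i hi
  obtain ⟨Z, hZ, h0⟩ := h i
  obtain rfl := hneg _ Z (by omega) hZ
  refine (IsZero.iff_id_eq_zero _).2 (hom_ext fun U s => ?_)
  rw [app_id, app_zero, ← supp_eq_empty, ← Set.subset_empty_iff]
  exact suppIn_of_isZero h0 U s

/-- Orthogonality of the support condition and the cosupport condition. -/
theorem SGT.zero (hneg : ∀ d Z, d < 0 → 𝒵 d Z → Z = ∅) {A B : Der k X} (hB : SGT 𝒵 c B)
    (hA : BLE 𝒵 c A) (f : A ⟶ B) : f = 0 := by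
  obtain ⟨⟨a, ha⟩, hA⟩ := hA
  have := hA.isLE hneg
  refine zero_of_bounded B A a c (fun i => ?_) f
  obtain ⟨Z, hZ, h0⟩ := hA i
  exact hB i Z hZ _ h0

/-- `u` is the truncation map of a perverse truncation triangle. -/
def IsPT (𝒵 : ℤ → Set X → Prop) (c : ℤ) {A K : Der k X} (u : A ⟶ K) : Prop :=
  ∃ (B : Der k X) (v : K ⟶ B) (w : B ⟶ A⟦(1 : ℤ)⟧),
    Triangle.mk u v w ∈ distTriang (Der k X) ∧ BLE 𝒵 c A ∧ SGT 𝒵 c B

/-- Two perverse truncations have the same image. -/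
theorem IsPT.thru (hneg : ∀ d Z, d < 0 → 𝒵 d Z → Z = ∅) {A A' K : Der k X} {u : A ⟶ K}
    {u' : A' ⟶ K} (h : IsPT 𝒵 c u) (h' : IsPT 𝒵 c u') : ∃ t : A ⟶ A', t ≫ u' = u := by
  obtain ⟨B, v, w, -, hA, -⟩ := h
  obtain ⟨B', v', w', hT', -, hB'⟩ := h'
  obtain ⟨t, ht⟩ : ∃ t : A ⟶ A', u = t ≫ u' :=
    Triangle.coyoneda_exact₂ _ hT' u (hB'.zero hneg hA _)
  exact ⟨t, ht.symm⟩

theorem IsPT.thru_iff (hneg : ∀ d Z, d < 0 → 𝒵 d Z → Z = ∅) {A A' K T : Der k X} {u : A ⟶ K}
    {u' : A' ⟶ K} (h : IsPT 𝒵 c u) (h' : IsPT 𝒵 c u') (y : T ⟶ K) :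
    (∃ φ, φ ≫ u = y) ↔ ∃ φ, φ ≫ u' = y := by
  obtain ⟨t, ht⟩ := h.thru hneg h'
  obtain ⟨t', ht'⟩ := h'.thru hneg h
  exact ⟨fun ⟨φ, hφ⟩ => ⟨φ ≫ t, by rw [Category.assoc, ht, hφ]⟩,
    fun ⟨φ, hφ⟩ => ⟨φ ≫ t', by rw [Category.assoc, ht', hφ]⟩⟩

/-- The perverse truncation given by an idempotent, in the form of the statement. -/
theorem perv_lit (hcl : ∀ d Z, 𝒵 d Z → IsClosed Z) (hemp : ∀ d, 𝒵 d ∅)
    (hneg : ∀ d Z, d < 0 → 𝒵 d Z → Z = ∅) {J : Cx k X} (hJ : InjC J) (n : ℤ)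
    [J.IsLE n] (p : J ⟶ J) (hp : Q.map p ≫ Q.map p = Q.map p)
    (hs : ∀ i, ∃ Z, 𝒵 (c - i) Z ∧ ∀ x ∉ Z, ZeroAt p i x)
    (hc : ∀ d Z, 𝒵 d Z → ∀ j ≤ c - d, ∀ x, ZeroAt ((mapC (GamS k Z)).map (𝟙 J - p)) j x) :
    (∃ (A : Der k X) (u : A ⟶ Q.obj J), IsPT 𝒵 c u) ∧
    ∀ (A : Der k X) (u : A ⟶ Q.obj J), IsPT 𝒵 c u →
      ∀ (T : Der k X) (y : T ⟶ Q.obj J), (∃ φ, φ ≫ u = y) ↔ y ≫ Q.map p = y := by
  obtain ⟨A', B', i, s, hT', hA', hB', hu⟩ := perv hcl hJ n p hp
    (fun i => by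
      obtain ⟨Z, hZ, h0⟩ := hs i
      exact ⟨Z, hZ, fun x hx => (zeroAt_iff p i x).1 (h0 x hx)⟩)
    (fun d Z hZ j hj => (homologyMap_eq_zero_iff _ j).2 (hc d Z hZ j hj))
  obtain ⟨a, ha⟩ := hJ.1
  have hi : IsPT 𝒵 c i := by
    refine ⟨B', s, 0, hT', ⟨⟨a, ?_⟩, hA'⟩, (hB'.orth hcl).sgt hemp⟩
    rw [DerivedCategory.isGE_iff]
    intro m hm
    have : Mono ((homologyFunctor _ m).map i) :=
      (HomologySequence.mono_homologyMap_mor₁_iff _ hT' (m - 1) m).2 (by
        exact (congrArg (· ≫ _) (Functor.map_zero _ _ _)).trans zero_comp)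
    exact (isZero_of_isGE (Q.obj J) a m hm).of_mono ((homologyFunctor _ m).map i)
  exact ⟨⟨A', i, hi⟩, fun A u h T y => (h.thru_iff hneg hi y).trans (hu T y)⟩

end P275PV
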