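import Mathlib

/-! A chain map into a bounded below complex of injectives is null-homotopic as soon as the
obstruction groups `Ext^m (H^m K, L)` vanish. -/

open CategoryTheory Limits CochainComplex HomComplex Preadditive

namespace P275PV

variable {C : Type*} [Category* C] [Abelian C]

/-- Every cocycle of degree `m` of `Hom (F, L)` is a coboundary. -/
def Lf (F : C) (L : CochainComplex C ℤ) (m : ℤ) : Prop :=
  ∀ v : F ⟶ L.X m, v ≫ L.d m (m + 1) = 0 → ∃ w : F ⟶ L.X (m - 1), w ≫ L.d (m - 1) m = v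

theorem Lf.of_iso {F G : C} {L : CochainComplex C ℤ} {m : ℤ} (h : Lf F L m) (e : F ≅ G) :
    Lf G L m := fun v hv => by
  obtain ⟨w, hw⟩ := h (e.hom ≫ v) (by rw [Category.assoc, hv, comp_zero])
  exact ⟨e.inv ≫ w, by rw [Category.assoc, hw, e.inv_hom_id_assoc]⟩

theorem Lf.lift {F : C} {L : CochainComplex C ℤ} {m : ℤ} (h : Lf F L m) (n l : ℤ)
    (hn : n + 1 = m) (hl : m + 1 = l) (v : F ⟶ L.X m) (hv : v ≫ L.d m l = 0) :
    ∃ w : F ⟶ L.X n, w ≫ L.d n m = v := by
  obtain rfl : n = m - 1 := by omega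
  subst hl
  exact h v hv

theorem null_aux {K L : CochainComplex C ℤ} (f : K ⟶ L) (α : Cochain K L (-1)) (n m : ℤ)
    (hnm : n + 1 = m) (hK : Lf (K.homology m) L m) [Injective (L.X n)] [Injective (L.X m)]
    (hα : (δ (-1) 0 α).EqUpTo (Cochain.ofHom f) n) :
    ∃ α' : Cochain K L (-1), (δ (-1) 0 α').EqUpTo (Cochain.ofHom f) m ∧ α'.EqUpTo α n := by
  subst hnm
  let u := f.f (n + 1) - α.v (n + 1) n (by omega) ≫ L.d n (n + 1) -
    K.d (n + 1) (n + 2) ≫ α.v (n + 2) (n + 1) (by omega)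
  have hu : K.d n (n + 1) ≫ u = 0 := by
    have eq := hα n n (add_zero n) (by rfl)
    simp only [δ_v (-1) 0 (neg_add_cancel 1) α n n (add_zero _) (n - 1) (n + 1)
      (by omega) (by omega), Int.negOnePow_zero, one_smul, Cochain.ofHom_v] at eq
    simp only [u, comp_sub, HomologicalComplex.d_comp_d_assoc, zero_comp,
      ← f.comm, ← eq, add_comp, Category.assoc, L.d_comp_d, comp_zero, zero_add, sub_self]
  have hu' : K.iCycles (n + 1) ≫ u ≫ L.d (n + 1) (n + 2) = 0 := by
    simp only [u, sub_comp, comp_sub, Category.assoc, L.d_comp_d, comp_zero, f.comm,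
      HomologicalComplex.iCycles_d_assoc, zero_comp, sub_self]
  have hc := K.homologyIsCokernel n (n + 1) (by simp)
  obtain ⟨v, hv⟩ : ∃ v : K.homology (n + 1) ⟶ L.X (n + 1),
      K.homologyπ (n + 1) ≫ v = K.iCycles (n + 1) ≫ u :=
    CokernelCofork.IsColimit.desc' hc (K.iCycles (n + 1) ≫ u) (by
      rw [HomologicalComplex.toCycles_i_assoc, hu]) |>.exists_of_subtype
  obtain ⟨w, hw⟩ := hK.lift n (n + 2) rfl (by omega) v (by
    rw [← cancel_epi (K.homologyπ (n + 1)), reassoc_of% hv, hu', comp_zero])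
  obtain ⟨β, hβ⟩ := Injective.factors (K.homologyπ (n + 1) ≫ w) (K.iCycles (n + 1))
  have hβ0 : K.d n (n + 1) ≫ β = 0 := by
    rw [← K.toCycles_i n (n + 1), Category.assoc, hβ,
      HomologicalComplex.toCycles_comp_homologyπ_assoc, zero_comp]
  have hex : (ShortComplex.mk (K.iCycles (n + 1)) (K.d (n + 1) (n + 2)) (by simp)).Exact :=
    ShortComplex.exact_of_f_is_kernel _ (K.cyclesIsKernel (n + 1) (n + 2) (by simp; omega))
  have hz : K.iCycles (n + 1) ≫ (u - β ≫ L.d n (n + 1)) = 0 := by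
    rw [comp_sub, reassoc_of% hβ, hw, hv, sub_self]
  obtain ⟨γ, hγ⟩ : ∃ γ : K.X (n + 2) ⟶ L.X (n + 1),
      K.d (n + 1) (n + 2) ≫ γ = u - β ≫ L.d n (n + 1) :=
    ⟨hex.descToInjective _ hz, hex.comp_descToInjective _ _⟩
  refine ⟨α + Cochain.single β (-1) + Cochain.single γ (-1), ?_, ?_⟩
  · intro p q hpq hp
    obtain rfl : p = q := by omega
    rcases lt_trichotomy p n with hp' | rfl | hp'
    · rw [δ_add, δ_add, Cochain.add_v, Cochain.add_v, hα p p (by omega) (by omega), add_assoc,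
        add_eq_left, δ_v (-1) 0 (neg_add_cancel 1) _ p p hpq (p - 1) (p + 1) rfl rfl,
        δ_v (-1) 0 (neg_add_cancel 1) _ p p hpq (p - 1) (p + 1) rfl rfl,
        Cochain.single_v_eq_zero _ _ _ _ _ (by omega),
        Cochain.single_v_eq_zero _ _ _ _ _ (by omega),
        Cochain.single_v_eq_zero _ _ _ _ _ (by omega),
        Cochain.single_v_eq_zero _ _ _ _ _ (by omega)]
      simp
    · rw [δ_add, δ_add, Cochain.add_v, Cochain.add_v, hα p p (by omega) (by omega), add_assoc,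
        add_eq_left, δ_v (-1) 0 (neg_add_cancel 1) _ p p hpq (p - 1) (p + 1) rfl rfl,
        δ_v (-1) 0 (neg_add_cancel 1) _ p p hpq (p - 1) (p + 1) rfl rfl,
        Cochain.single_v_eq_zero _ _ _ _ _ (by omega), Cochain.single_v,
        Cochain.single_v_eq_zero _ _ _ _ _ (by omega),
        Cochain.single_v_eq_zero _ _ _ _ _ (by omega)]
      simp [hβ0]
    · obtain rfl : p = n + 1 := by omega
      rw [δ_v (-1) 0 (neg_add_cancel 1) _ (n + 1) (n + 1) (by omega) n (n + 2)
        (by omega) (by omega), Cochain.add_v, Cochain.add_v, Cochain.add_v, Cochain.add_v,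
        Cochain.single_v, Cochain.single_v,
        Cochain.single_v_eq_zero _ _ _ _ _ (by omega),
        Cochain.single_v_eq_zero _ _ _ _ _ (by omega)]
      simp only [hγ, u, Int.negOnePow_zero, one_smul, Cochain.ofHom_v, add_comp, comp_add,
        add_zero]
      abel
  · intro p q hpq hp
    rw [Cochain.add_v, Cochain.add_v, Cochain.single_v_eq_zero _ _ _ _ _ (by omega),
      Cochain.single_v_eq_zero _ _ _ _ _ (by omega), add_zero, add_zero]

open Cochain.InductionUp in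
/-- If all groups `Ext^m (H^m K, L)` vanish then every chain map `K ⟶ L` is null-homotopic. -/
theorem null_of_lf {K L : CochainComplex C ℤ} (d : ℤ) [L.IsStrictlyGE d]
    [∀ n, Injective (L.X n)] (hK : ∀ m, Lf (K.homology m) L m) (f : K ⟶ L) :
    Nonempty (Homotopy f 0) := by
  let X (n : ℕ) : Set (Cochain K L (-1)) :=
    {α | (δ (-1) 0 α).EqUpTo (Cochain.ofHom f) (n + d - 1)}
  let x₀ : X 0 := ⟨0, fun p q hpq hp =>
    IsZero.eq_of_tgt (L.isZero_of_isStrictlyGE d _ (by omega)) _ _⟩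
  let φ (n : ℕ) (α : X n) : X (n + 1) :=
    ⟨_, (null_aux f α.1 (n + d - 1) ((n + 1 : ℕ) + d - 1) (by omega) (hK _) α.2).choose_spec.1⟩
  have hφ (k : ℕ) (x : X k) : (φ k x).1.EqUpTo x.1 (d - 1 + k) := fun p q hpq hp =>
    (null_aux f x.1 (k + d - 1) ((k + 1 : ℕ) + d - 1) (by omega) (hK _) x.2).choose_spec.2
      p q hpq (by omega)
  refine ⟨(Cochain.equivHomotopy f 0).symm ⟨limitSequence φ hφ x₀, ?_⟩⟩
  rw [Cochain.ofHom_zero, add_zero]
  ext n
  let k₀ := (n - d + 2).toNat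
  rw [← (sequence φ x₀ k₀).2 n n (add_zero n) (by omega),
    δ_v (-1) 0 (neg_add_cancel 1) _ n n (by omega) (n - 1) (n + 1) rfl (by omega),
    δ_v (-1) 0 (neg_add_cancel 1) _ n n (by omega) (n - 1) (n + 1) rfl (by omega),
    limitSequence_eqUpTo φ hφ x₀ k₀ n (n - 1) (by omega) (by omega),
    limitSequence_eqUpTo φ hφ x₀ k₀ (n + 1) n (by omega) (by omega)]

/-- A bounded below complex of injectives that is exact up to degree `m` is split up to
degree `m`. -/
theorem lf_of_exact {L : CochainComplex C ℤ} (d : ℤ) [L.IsStrictlyGE d]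
    [∀ n, Injective (L.X n)] (m : ℤ) (hL : ∀ j ≤ m, L.ExactAt j) (F : C) : Lf F L m := by
  have key : ∀ (a : ℕ) (j : ℤ), j = d - 1 + a → j ≤ m → ∀ G : C, Lf G L j := by
    intro a
    induction a with
    | zero =>
      intro j hj _ G v _
      exact ⟨0, IsZero.eq_of_tgt (L.isZero_of_isStrictlyGE d _ (by omega)) _ _⟩
    | succ a ih =>
      intro j hj hjm G v hv
      have h1 := ih (j - 1) (by omega) (by omega)
      obtain ⟨s, hs⟩ := (h1 (L.cycles (j - 1))).lift (j - 1 - 1) j (by omega) (by omega)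
        (L.iCycles (j - 1)) (by simp)
      obtain ⟨s', hs'⟩ := Injective.factors s (L.iCycles (j - 1))
      have hex : (ShortComplex.mk (L.iCycles (j - 1)) (L.d (j - 1) j) (by simp)).Exact :=
        ShortComplex.exact_of_f_is_kernel _ (L.cyclesIsKernel (j - 1) j (by simp))
      have hz : L.iCycles (j - 1) ≫ (𝟙 _ - s' ≫ L.d (j - 1 - 1) (j - 1)) = 0 := by
        rw [comp_sub, reassoc_of% hs', hs, Category.comp_id, sub_self]
      obtain ⟨r, hr⟩ : ∃ r : L.X j ⟶ L.X (j - 1),
          L.d (j - 1) j ≫ r = 𝟙 _ - s' ≫ L.d (j - 1 - 1) (j - 1) :=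
        ⟨hex.descToInjective _ hz, hex.comp_descToInjective _ _⟩
      have hE := hL j hjm
      rw [L.exactAt_iff' (j - 1) j (j + 1) (by simp) (by simp)] at hE
      obtain ⟨A, π, _, y, hy'⟩ : ∃ (A : C) (π : A ⟶ G) (_ : Epi π) (y : A ⟶ L.X (j - 1)),
          π ≫ v = y ≫ L.d (j - 1) j := hE.exact_up_to_refinements v hv
      refine ⟨v ≫ r, ?_⟩
      rw [← cancel_epi π, Category.assoc, reassoc_of% hy', reassoc_of% hr, hy']
      simp [sub_comp]
  by_cases hm : m < d
  · intro v _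
    exact ⟨0, IsZero.eq_of_tgt (L.isZero_of_isStrictlyGE d _ hm) _ _⟩
  · exact key (m - d + 1).toNat m (by omega) le_rfl F

end P275PV
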