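import Vale.Agent.P275PV.Null
import Vale.Agent.P275S.Defs

/-! Orthogonality of the support condition and the cosupport condition. -/

open CategoryTheory TopologicalSpace Opposite Limits P275S

noncomputable section

namespace P275PV

variable {k : Type} [Field k] {X : TopCat.{0}}

/-- All sections of `F` are supported in `Z`. -/
def SuppIn (F : Sh k X) (Z : Set X) : Prop := ∀ U (s : sec F U), supp s ⊆ Z

theorem not_mem_supp_of_isZero {F : Sh k X} {x : X} (h : IsZero ((Stk k x).obj F))
    {U : Opens X} (s : sec F U) : x ∉ supp s := by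
  intro hx
  have h0 : (TopCat.Presheaf.germ F.1 U x hx.1) s = (TopCat.Presheaf.germ F.1 U x hx.1) 0 := by
    have : TopCat.Presheaf.germ F.1 U x hx.1 = 0 := h.eq_of_tgt _ _
    rw [this]
    rfl
  obtain ⟨W, hW, i, j, hij⟩ := TopCat.Presheaf.germ_eq F.1 x hx.1 hx.1 s 0 h0
  refine hx.2 W i.le hW ?_
  have h1 : res F i.le s = res F j.le 0 := hij
  rw [h1, map_zero]

theorem suppIn_of_isZero {F : Sh k X} {Z : Set X} (h : ∀ x ∉ Z, IsZero ((Stk k x).obj F)) :
    SuppIn F Z := fun _ s x hx => by
  by_contra hZ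
  exact not_mem_supp_of_isZero (h x hZ) s hx

theorem app_injective_of_mono {F G : Sh k X} (g : F ⟶ G) [Mono g] (U : Opens X) :
    Function.Injective (app g U) := by
  have : Mono g.1 := inferInstanceAs (Mono ((TopCat.Sheaf.forget _ X).map g))
  have : Mono (g.1.app (op U)) := inferInstance
  exact (ModuleCat.mono_iff_injective (g.1.app (op U))).1 this

theorem supp_app_of_mono {F G : Sh k X} (g : F ⟶ G) [Mono g] {U : Opens X} (s : sec F U) :
    supp (app g U s) = supp s := by
  refine (supp_app g s).antisymm fun x hx => ⟨hx.1, fun V hV hxV h0 => hx.2 V hV hxV ?_⟩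
  refine app_injective_of_mono g V ?_
  rw [app_res, h0, map_zero]

/-- Sections with support in a closed set of an injective sheaf form an injective sheaf. -/
theorem injective_gamS {Z : Set X} (hZ : IsClosed Z) (J : Sh k X) [Injective J] :
    Injective ((GamS k Z).obj J) where
  factors {A B} f g _ := by
    let φ : A ⊞ (suppData Zᶜ B).sh ⟶ B := biprod.desc g (suppData Zᶜ B).ι
    let ψ : A ⊞ (suppData Zᶜ B).sh ⟶ J := biprod.fst ≫ f ≫ (suppData Z J).ι
    have hker : kernel.ι φ ≫ ψ = 0 := by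
      refine hom_ext fun U s => ?_
      have h1 : kernel.ι φ ≫ biprod.fst ≫ g +
          kernel.ι φ ≫ biprod.snd ≫ (suppData Zᶜ B).ι = 0 := by
        rw [← Preadditive.comp_add, ← biprod.desc_eq]
        exact kernel.condition φ
      have h2 := congrArg (fun t => app t U s) h1
      simp only [app_add, app_comp, app_zero] at h2
      have h3 : supp (app biprod.fst U (app (kernel.ι φ) U s) : sec A U) ⊆ Zᶜ := by
        rw [← supp_app_of_mono g, eq_neg_of_add_eq_zero_left h2, supp_neg]
        exact (suppData Zᶜ B).ι_mem U _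
      rw [app_zero, ← supp_eq_empty, Set.eq_empty_iff_forall_notMem]
      intro x hx
      exact h3 (supp_app (f ≫ (suppData Z J).ι) _ hx) ((suppData Z J).ι_mem U _ hx)
    have hex : (ShortComplex.mk (kernel.ι φ) φ (kernel.condition φ)).Exact :=
      ShortComplex.exact_of_f_is_kernel _ (kernelIsKernel φ)
    obtain ⟨e, he⟩ : ∃ e : B ⟶ J, φ ≫ e = ψ :=
      ⟨hex.descToInjective _ hker, hex.comp_descToInjective _ _⟩
    have he1 : g ≫ e = f ≫ (suppData Z J).ι := by
      have := congrArg (fun t => biprod.inl ≫ t) he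
      simpa [φ, ψ] using this
    have he2 : (suppData Zᶜ B).ι ≫ e = 0 := by
      have := congrArg (fun t => biprod.inr ≫ t) he
      simpa [φ, ψ] using this
    refine ⟨(suppData Z J).lift e fun U s x hx => ?_, ?_⟩
    · by_contra hxZ
      let V : Opens X := U ⊓ ⟨Zᶜ, hZ.isOpen_compl⟩
      refine hx.2 V inf_le_left ⟨hx.1, hxZ⟩ ?_
      obtain ⟨t, ht⟩ := (suppData Zᶜ B).exists_ι (s := res B (inf_le_left : V ≤ U) s)
        fun y hy => (supp_subset _ hy).2
      rw [← app_res, ← ht, ← app_comp, he2, app_zero]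
    · refine hom_ext fun U s => (suppData Z J).ι_injective U ?_
      exact congrArg (fun t => app t U s) he1

theorem injC_gamS {Z : Set X} (hZ : IsClosed Z) {J : Cx k X} (hJ : InjC J) :
    InjC ((mapC (GamS k Z)).obj J) := by
  obtain ⟨⟨a, ha⟩, hi⟩ := hJ
  refine ⟨⟨a, ?_⟩, fun n => injective_gamS hZ _⟩
  rw [CochainComplex.isStrictlyGE_iff]
  intro i hi
  exact (GamS k Z).map_isZero (J.isZero_of_isStrictlyGE a i hi)

/-- No maps from a sheaf supported in `Z` placed in degree `m` if the local cohomology with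
support in `Z` vanishes up to degree `m`. -/
theorem lf_of_suppIn {Z : Set X} (hZ : IsClosed Z) {J : Cx k X} (hJ : InjC J) {m : ℤ}
    (hE : ∀ j ≤ m, ((mapC (GamS k Z)).obj J).ExactAt j) {F : Sh k X} (hF : SuppIn F Z) :
    Lf F J m := by
  obtain ⟨⟨a, ha⟩, hi⟩ := injC_gamS hZ hJ
  intro v hv
  obtain ⟨w, hw⟩ := lf_of_exact a m hE F
    ((suppData Z (J.X m)).lift v fun U s => (supp_app v s).trans (hF U s))
    (hom_ext fun U s => (suppData Z (J.X (m + 1))).ι_injective U
      (congrArg (fun t => app t U s) hv))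
  refine ⟨w ≫ (suppData Z (J.X (m - 1))).ι, hom_ext fun U s => ?_⟩
  exact congrArg (fun t => app (suppData Z (J.X m)).ι U (app t U s)) hw

/-- Chain level orthogonality. -/
theorem null_of_supp {K J : Cx k X} (hJ : InjC J)
    (h : ∀ m, ∃ Z, IsClosed Z ∧ SuppIn (K.homology m) Z ∧
      ∀ j ≤ m, ((mapC (GamS k Z)).obj J).ExactAt j) (f : K ⟶ J) : Nonempty (Homotopy f 0) := by
  obtain ⟨⟨a, ha⟩, hi⟩ := id hJ
  refine null_of_lf a (fun m => ?_) f
  obtain ⟨Z, hZ, h1, h2⟩ := h m
  exact lf_of_suppIn hZ hJ h2 h1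

end P275PV
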