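import Vale.Agent.P275PV.Orth
import Vale.Agent.P275JM.Split

/-! The perverse truncation triangle of a complex with an idempotent satisfying the support and
the cosupport condition. -/

open CategoryTheory TopologicalSpace Opposite Limits Pretriangulated P275S DerivedCategory

noncomputable section

namespace P275PV

section KInj

variable {C : Type*} [Category* C] [Abelian C] [HasDerivedCategory C]

theorem InjC_isKInjective {C : Type*} [Category* C] [Abelian C] {J : CochainComplex C ℤ}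
    (hJ : InjC J) : J.IsKInjective := by
  obtain ⟨⟨a, ha⟩, hi⟩ := hJ
  exact CochainComplex.isKInjective_of_injective J a

/-- Morphisms of the derived category into a K-injective complex come from chain maps. -/
theorem exists_map_eq {K J : CochainComplex C ℤ} (hJ : J.IsKInjective) (g : Q.obj K ⟶ Q.obj J) :
    ∃ f : K ⟶ J, Q.map f = g := by
  obtain ⟨f, hf⟩ := (CochainComplex.IsKInjective.Qh_map_bijective
    ((HomotopyCategory.quotient _ _).obj K) J).surjective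
    ((quotientCompQhIso C).hom.app K ≫ g ≫ (quotientCompQhIso C).inv.app J)
  obtain ⟨f, rfl⟩ := (HomotopyCategory.quotient _ _).map_surjective f
  refine ⟨f, ?_⟩
  rw [← cancel_mono ((quotientCompQhIso C).inv.app J), quotientCompQhIso_inv_naturality, hf]
  simp

/-- Chain maps into a K-injective complex that agree in the derived category are homotopic. -/
theorem homotopy_of_map_eq {K J : CochainComplex C ℤ} (hJ : J.IsKInjective) {f g : K ⟶ J}
    (h : Q.map f = Q.map g) : Nonempty (Homotopy f g) := by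
  refine ⟨HomotopyCategory.homotopyOfEq _ _ ((CochainComplex.IsKInjective.Qh_map_bijective
    ((HomotopyCategory.quotient _ _).obj K) J).injective ?_)⟩
  rw [← cancel_mono ((quotientCompQhIso C).hom.app J), quotientCompQhIso_hom_naturality,
    quotientCompQhIso_hom_naturality, h]

/-- A bounded below object of the derived category is represented by a bounded below complex of
injectives. -/
theorem exists_injC [EnoughInjectives C] (B : DerivedCategory C) (a : ℤ) [B.IsGE a] :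
    ∃ J : CochainComplex C ℤ, InjC J ∧ Nonempty (B ≅ Q.obj J) := by
  obtain ⟨K, _, ⟨e⟩⟩ := B.exists_iso_Q_obj_of_isGE a
  obtain ⟨L, i, _, h1, h2⟩ :=
    CochainComplex.Plus.modelCategoryQuillen.exists_quasiIso_injective K a
  exact ⟨L, ⟨⟨a, h2⟩, h1⟩, ⟨e ≪≫ asIso (Q.map i)⟩⟩

end KInj

variable {k : Type} [Field k] {X : TopCat.{0}}

/-- The support condition `A ∈ pD^{≤ c}`; `𝒵 d Z` reads: `Z` is an admissible closed set of
dimension at most `d`. -/
def LE (𝒵 : ℤ → Set X → Prop) (c : ℤ) (A : Der k X) : Prop :=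
  ∀ i, ∃ Z, 𝒵 (c - i) Z ∧ ∀ x ∉ Z, IsZero ((Stk k x).obj ((homologyFunctor _ i).obj A))

/-- The cosupport condition `B ∈ pD^{> c}`. -/
def GT (𝒵 : ℤ → Set X → Prop) (c : ℤ) (B : Der k X) : Prop :=
  ∃ J : Cx k X, InjC J ∧ Nonempty (B ≅ Q.obj J) ∧
    ∀ d Z, 𝒵 d Z → ∀ j ≤ c - d, ((mapC (GamS k Z)).obj J).ExactAt j

/-- `B` is right orthogonal to all objects satisfying the support condition. -/
def Orth (𝒵 : ℤ → Set X → Prop) (c : ℤ) (B : Der k X) : Prop :=
  ∀ A : Der k X, LE 𝒵 c A → ∀ f : A ⟶ B, f = 0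

variable {𝒵 : ℤ → Set X → Prop} {c : ℤ}

theorem LE.of_iso {A A' : Der k X} (h : LE 𝒵 c A) (e : A ≅ A') : LE 𝒵 c A' := fun i => by
  obtain ⟨Z, hZ, h0⟩ := h i
  exact ⟨Z, hZ, fun x hx =>
    (h0 x hx).of_iso ((Stk k x).mapIso ((homologyFunctor _ i).mapIso e.symm))⟩

/-- Orthogonality of the support and the cosupport condition. -/
theorem GT.orth (hcl : ∀ d Z, 𝒵 d Z → IsClosed Z) {B : Der k X} (h : GT 𝒵 c B) :
    Orth 𝒵 c B := by
  intro A hA f
  obtain ⟨J, hJ, ⟨e⟩, hE⟩ := h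
  let K : Cx k X := Q.objPreimage A
  let e' : Q.obj K ≅ A := Q.objObjPreimageIso A
  obtain ⟨g, hg⟩ := exists_map_eq (InjC_isKInjective hJ) (e'.hom ≫ f ≫ e.hom)
  obtain ⟨H⟩ := null_of_supp hJ (fun m => by
    obtain ⟨Z, hZ, h0⟩ := hA.of_iso e'.symm m
    exact ⟨Z, hcl _ _ hZ, suppIn_of_isZero fun x hx => (h0 x hx).of_iso
      ((Stk k x).mapIso ((homologyFunctorFactors _ m).app K).symm),
      fun j hj => hE _ Z hZ j (by omega)⟩) g
  rw [Q_map_eq_of_homotopy _ H, Functor.map_zero] at hg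
  rw [← cancel_epi e'.hom, ← cancel_mono e.hom, Category.assoc, ← hg, comp_zero, zero_comp]

/-- For a triangle `A ⟶ K ⟶ B` with `A` in `LE`, `B` orthogonal to `LE`, and a second such
triangle, the same maps factor through `A` and through `A'`. -/
theorem thru_unique {K A B A' B' : Der k X} {a : A ⟶ K} {b : K ⟶ B} {w : B ⟶ A⟦(1 : ℤ)⟧}
    {a' : A' ⟶ K} {b' : K ⟶ B'} {w' : B' ⟶ A'⟦(1 : ℤ)⟧}
    (hT' : Triangle.mk a' b' w' ∈ distTriang (Der k X)) (hA : LE 𝒵 c A) (hB' : Orth 𝒵 c B')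
    (_ : Triangle.mk a b w ∈ distTriang (Der k X))
    {T : Der k X} {u : T ⟶ K} (hu : ∃ v, v ≫ a = u) : ∃ v, v ≫ a' = u := by
  obtain ⟨v, rfl⟩ := hu
  obtain ⟨t, ht⟩ : ∃ t : A ⟶ A', a = t ≫ a' := Triangle.coyoneda_exact₂ _ hT' a (hB' A hA _)
  exact ⟨v ≫ t, by rw [Category.assoc, ← ht]⟩

/-- The perverse truncation given by an idempotent. -/
theorem perv (hcl : ∀ d Z, 𝒵 d Z → IsClosed Z) {J : Cx k X} (hJ : InjC J) (n : ℤ) [J.IsLE n]
    (p : J ⟶ J) (hp : Q.map p ≫ Q.map p = Q.map p)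
    (hs : ∀ i, ∃ Z, 𝒵 (c - i) Z ∧
      ∀ x ∉ Z, (Stk k x).map (HomologicalComplex.homologyMap p i) = 0)
    (hc : ∀ d Z, 𝒵 d Z → ∀ j ≤ c - d,
      HomologicalComplex.homologyMap ((mapC (GamS k Z)).map (𝟙 J - p)) j = 0) :
    ∃ (A B : Der k X) (i : A ⟶ Q.obj J) (s : Q.obj J ⟶ B),
      Triangle.mk i s 0 ∈ distTriang (Der k X) ∧ LE 𝒵 c A ∧ GT 𝒵 c B ∧
      ∀ (T : Der k X) (u : T ⟶ Q.obj J), (∃ v, v ≫ i = u) ↔ u ≫ Q.map p = u := by
  obtain ⟨a, ha⟩ := hJ.1
  obtain ⟨A, B, i, r, j, s, h1, h2, h3, h4, hT⟩ :=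
    P275JM.exists_split (Q.obj J) a n (Q.map p) hp
  refine ⟨A, B, i, s, hT, fun m => ?_, ?_, fun T u => ⟨?_, fun hu => ⟨u ≫ r, ?_⟩⟩⟩
  · obtain ⟨Z, hZ, h0⟩ := hs m
    refine ⟨Z, hZ, fun x hx => ?_⟩
    have e1 : 𝟙 A = i ≫ Q.map p ≫ r := by
      rw [← h3, Category.assoc, reassoc_of% h1, h1]
    have e2 : (Stk k x).map ((homologyFunctor _ m).map (Q.map p)) = 0 := by
      have e3 : (Stk k x).map ((HomologicalComplex.homologyFunctor _ _ m).map p) = 0 := h0 x hx
      have e4 := congrArg (Stk k x).map ((homologyFunctorFactors _ m).hom.naturality p)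
      rw [Functor.map_comp, Functor.map_comp, e3, comp_zero] at e4
      exact (cancel_mono ((Stk k x).map ((homologyFunctorFactors _ m).hom.app J))).1
        (e4.trans zero_comp.symm)
    rw [IsZero.iff_id_eq_zero, ← (Stk k x).map_id, ← (homologyFunctor _ m).map_id, e1]
    simp only [Functor.map_comp, e2, zero_comp, comp_zero]
  · have hB : B.IsGE a := by
      rw [isGE_iff]
      intro m hm
      rw [IsZero.iff_id_eq_zero, ← (homologyFunctor _ m).map_id, ← h2, Functor.map_comp]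
      rw [(isZero_of_isGE (Q.obj J) a m hm).eq_of_src ((homologyFunctor _ m).map s) 0, comp_zero]
    obtain ⟨L, hL, ⟨e⟩⟩ := exists_injC B a
    refine ⟨L, hL, ⟨e⟩, fun d Z hZ m hm => ?_⟩
    obtain ⟨j', hj'⟩ := exists_map_eq (InjC_isKInjective hJ) (e.inv ≫ j)
    obtain ⟨s', hs'⟩ := exists_map_eq (InjC_isKInjective hL) (s ≫ e.hom)
    obtain ⟨H⟩ := homotopy_of_map_eq (InjC_isKInjective hL)
      (f := 𝟙 L) (g := j' ≫ (𝟙 J - p) ≫ s') (by
        rw [Q.map_comp, Q.map_comp, Q.map_sub, Q.map_id, Q.map_id, hj', hs', ← h4]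
        simp [reassoc_of% h2])
    have H' := (GamS k Z).mapHomotopy H
    rw [HomologicalComplex.exactAt_iff_isZero_homology, IsZero.iff_id_eq_zero,
      ← HomologicalComplex.homologyMap_id, ← (mapC (GamS k Z)).map_id, H'.homologyMap_eq m,
      Functor.map_comp, Functor.map_comp, HomologicalComplex.homologyMap_comp,
      HomologicalComplex.homologyMap_comp, hc d Z hZ m hm, zero_comp, comp_zero]
  · rintro ⟨v, rfl⟩
    rw [← h3, Category.assoc, reassoc_of% h1]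
  · rw [Category.assoc, h3, hu]

/-- The perverse truncation given by an idempotent: existence, and the image formula for every
truncation triangle. -/
theorem perv_all (hcl : ∀ d Z, 𝒵 d Z → IsClosed Z) {J : Cx k X} (hJ : InjC J) (n : ℤ)
    [J.IsLE n] (p : J ⟶ J) (hp : Q.map p ≫ Q.map p = Q.map p)
    (hs : ∀ i, ∃ Z, 𝒵 (c - i) Z ∧
      ∀ x ∉ Z, (Stk k x).map (HomologicalComplex.homologyMap p i) = 0)
    (hc : ∀ d Z, 𝒵 d Z → ∀ j ≤ c - d,
      HomologicalComplex.homologyMap ((mapC (GamS k Z)).map (𝟙 J - p)) j = 0) :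
    (∃ (A B : Der k X) (a : A ⟶ Q.obj J) (b : Q.obj J ⟶ B) (w : B ⟶ A⟦(1 : ℤ)⟧),
      Triangle.mk a b w ∈ distTriang (Der k X) ∧ LE 𝒵 c A ∧ GT 𝒵 c B) ∧
    ∀ (A B : Der k X) (a : A ⟶ Q.obj J) (b : Q.obj J ⟶ B) (w : B ⟶ A⟦(1 : ℤ)⟧),
      Triangle.mk a b w ∈ distTriang (Der k X) → LE 𝒵 c A → Orth 𝒵 c B →
      ∀ (T : Der k X) (u : T ⟶ Q.obj J), (∃ v, v ≫ a = u) ↔ u ≫ Q.map p = u := by
  obtain ⟨A', B', i, s, hT', hA', hB', hu⟩ := perv hcl hJ n p hp hs hc
  refine ⟨⟨A', B', i, s, 0, hT', hA', hB'⟩, fun A B a b w hT hA hB T u => ?_⟩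
  rw [← hu]
  exact ⟨thru_unique hT' hA (hB'.orth hcl) hT, thru_unique hT hA' hB hT'⟩

end P275PV
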